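import Vale.Agent.P181.H382.H694.Rho
import Vale.Agent.P181.H382.H382.UDefs
import Vale.Agent.P181.LF.NearU
import Vale.Agent.P181.DX.H556.SecA

set_option autoImplicit false

/-!
# P181, LS [U2]: `RhoU` from `TwoLongSU`, `NearV`, `UniAll`, `PolyS` (helper398)
-/

namespace Vale.Agent.P181.H382.H398

open Filter
open Vale.Agent.P181
open Vale.Agent.P181.T4 (ex)
open Vale.Agent.P181.H280 (plethMult)
open Vale.Agent.P181.PL (dn exlt exge exfin exanti dn_succ PolyS)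
open Vale.Agent.P181.TL (dn2)

theorem ev_t (C : ℝ) : ∃ T : ℝ, ∀ t : ℝ, T ≤ t → (C * Real.log (2 + t)) ^ 2 ≤ t := by
  have h1 : ∀ᶠ x : ℝ in atTop, ‖Real.log x ^ 2‖ ≤ 1 / (2 * (C ^ 2 + 1)) * ‖id x‖ :=
    (Real.isLittleO_pow_log_id_atTop (n := 2)).bound (by positivity)
  have h2 := (tendsto_atTop_add_const_left atTop (2 : ℝ) tendsto_id).eventually h1
  obtain ⟨T, hT⟩ := eventually_atTop.1 (h2.and (eventually_ge_atTop (2 : ℝ)))
  refine ⟨T, fun t ht => ?_⟩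
  obtain ⟨h3, h4⟩ := hT t ht
  simp only [id] at h3
  rw [Real.norm_of_nonneg (by positivity), Real.norm_of_nonneg (by linarith)] at h3
  have h5 : (0 : ℝ) < C ^ 2 + 1 := by positivity
  calc (C * Real.log (2 + t)) ^ 2 = C ^ 2 * Real.log (2 + t) ^ 2 := by ring
    _ ≤ (C ^ 2 + 1) * Real.log (2 + t) ^ 2 := by
        refine mul_le_mul_of_nonneg_right (by linarith) (by positivity)
    _ ≤ (C ^ 2 + 1) * (1 / (2 * (C ^ 2 + 1)) * (2 + t)) := mul_le_mul_of_nonneg_left h3 h5.le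
    _ = (2 + t) / 2 := by field_simp
    _ ≤ t := by linarith

theorem xcond {x t C C2 : ℝ} (hx : 1 ≤ x) (ht : 1 ≤ t) (hC2 : 0 < C2) (hC : 2 * C2 ≤ C)
    (hT : (C2 * Real.log (2 + t)) ^ 2 ≤ t) (h : C * x * Real.log (2 * x) ≤ t) :
    C2 * x * Real.log (2 + t) ≤ t := by
  have hx0 : 0 < x := by linarith
  have hl : 0 ≤ Real.log (2 + t) := Real.log_nonneg (by linarith)
  rcases le_or_gt t (x ^ 2) with h1 | h1
  · have h2 : Real.log (2 + t) ≤ 2 * Real.log (2 * x) := by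
      have h3 : Real.log (2 + t) ≤ Real.log ((2 * x) ^ 2) :=
        Real.log_le_log (by linarith) (by nlinarith)
      rw [Real.log_pow] at h3
      exact_mod_cast h3
    have h4 : 0 ≤ Real.log (2 * x) := Real.log_nonneg (by linarith)
    calc C2 * x * Real.log (2 + t) ≤ C2 * x * (2 * Real.log (2 * x)) :=
          mul_le_mul_of_nonneg_left h2 (by positivity)
      _ = 2 * C2 * (x * Real.log (2 * x)) := by ring
      _ ≤ C * (x * Real.log (2 * x)) := mul_le_mul_of_nonneg_right hC (by positivity)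
      _ = C * x * Real.log (2 * x) := by ring
      _ ≤ t := h
  · have h2 : (C2 * x * Real.log (2 + t)) ^ 2 ≤ t ^ 2 := by
      calc (C2 * x * Real.log (2 + t)) ^ 2 = x ^ 2 * (C2 * Real.log (2 + t)) ^ 2 := by ring
        _ ≤ t * t := mul_le_mul h1.le hT (by positivity) (by linarith)
        _ = t ^ 2 := by ring
    exact le_of_pow_le_pow_left₀ (by norm_num) (by linarith) h2

/-- **[U2]** -/
theorem rhoU_of (h4 : U.TwoLongSU) (hV : LF.NearV) (hU : DX.H556.UniAll) (hP : PolyS) :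
    U.RhoU := by
  obtain ⟨C3, c3, hC3, h3⟩ := hP
  obtain ⟨C1, c1, hC1, h1⟩ := hU
  obtain ⟨C4, c4, hC4, h4⟩ := h4
  obtain ⟨M, hM⟩ : ∃ M : ℝ, M = 2 * C1 + C3 + 1 := ⟨_, rfl⟩
  have hM1 : 1 ≤ M := by
    rw [hM]
    linarith
  obtain ⟨e, he⟩ : ∃ e : ℕ, e = c1 + c3 + 1 := ⟨_, rfl⟩
  obtain ⟨C0, hC0⟩ : ∃ C0 : ℝ, C0 = C4 * M ^ c4 + 2 * C1 := ⟨_, rfl⟩
  have hC0p : 0 < C0 := by
    rw [hC0]
    positivity
  obtain ⟨C2, a0, hC2, h2⟩ := hV C0 (e * c4 + c1) hC0p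
  obtain ⟨T, hT⟩ := ev_t C2
  obtain ⟨A, hA⟩ := H694.ev_log (C4 * M ^ c4) (e * c4)
  obtain ⟨B, hB⟩ : ∃ B : ℝ, B = |T| + a0 + A + 2 := ⟨_, rfl⟩
  have hB2 : 2 ≤ B := by
    rw [hB]
    have : (0 : ℝ) ≤ a0 := Nat.cast_nonneg _
    have : (0 : ℝ) ≤ A := Nat.cast_nonneg _
    have := abs_nonneg T
    linarith
  refine ⟨2 * C2 + C4 + 1 + 2 * B, by linarith, ?_⟩
  obtain ⟨C, hC⟩ : ∃ C : ℝ, C = 2 * C2 + C4 + 1 + 2 * B := ⟨_, rfl⟩
  rw [← hC]
  have hCp : 0 < C := by linarith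
  intro a b hab n lam hor
  by_cases hz : plethMult a b n lam = 0
  · rw [hz]
    exact Nat.zero_le _
  obtain ⟨hanti, hsum, -⟩ := H530.zero_stmt a b n lam hz
  have habR : (a : ℝ) < b := by exact_mod_cast hab
  have ha0 : (0 : ℝ) ≤ a := Nat.cast_nonneg a
  have hb0 : (0 : ℝ) < b := by linarith
  have hb3 : (0 : ℝ) < (b : ℝ) ^ 3 := by positivity
  obtain ⟨g, hg⟩ : ∃ g : ℝ, g = (b : ℝ) - a := ⟨_, rfl⟩
  have hg0 : 0 < g := by linarith
  obtain ⟨x, hx⟩ : ∃ x : ℝ, x = (b : ℝ) / g := ⟨_, rfl⟩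
  have hbx : (b : ℝ) = x * g := by
    rw [hx]
    field_simp
  have hx1 : 1 ≤ x := by
    rw [hx, le_div_iff₀ hg0]
    linarith
  have h2x : 2 * (b : ℝ) / ((b : ℝ) - a) = 2 * x := by
    rw [← hg, hx, mul_div_assoc]
  obtain ⟨w, hw⟩ : ∃ w : ℝ, w = (dn lam 1 : ℝ) := ⟨_, rfl⟩
  obtain ⟨D, hD⟩ : ∃ D : ℝ, D = (dn lam 2 : ℝ) := ⟨_, rfl⟩
  rw [h2x, ← hg, ← hw, ← hD] at hor
  have hw0 : 0 ≤ w := by
    rw [hw]
    exact Nat.cast_nonneg _
  have hD0 : 0 ≤ D := by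
    rw [hD]
    exact Nat.cast_nonneg _
  have hwab : w ≤ a * b := by
    have h := H694.dn_le_sum lam 1
    rw [hsum] at h
    rw [hw]
    exact_mod_cast h
  have hDab : D ≤ a * b := by
    have h := H694.dn_le_sum lam 2
    rw [hsum] at h
    rw [hD]
    exact_mod_cast h
  have hl2 : (1 / 2 : ℝ) ≤ Real.log (2 * x) :=
    LF.log_half.trans (Real.log_le_log (by norm_num) (by linarith))
  have hR0 : 0 < Real.log (w * D / (b : ℝ) ^ 3) := by
    have h5 : 0 < C * b * Real.log (2 * x) := by positivity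
    have h6 : 0 < g * Real.log (w * D / (b : ℝ) ^ 3) := lt_of_lt_of_le h5 hor
    exact (pos_iff_pos_of_mul_pos h6).1 hg0
  have hR1 : 1 < w * D / (b : ℝ) ^ 3 := by
    by_contra hcon
    have := Real.log_nonpos (by positivity) (not_lt.1 hcon)
    linarith
  have hDp : 0 < D := by
    rcases hD0.lt_or_eq with h | h
    · exact h
    · rw [← h, mul_zero, zero_div] at hR1
      linarith
  have hwp : 0 < w := by
    rcases hw0.lt_or_eq with h | h
    · exact h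
    · rw [← h, zero_mul, zero_div] at hR1
      linarith
  have hRa : w * D / (b : ℝ) ^ 3 ≤ a := by
    rw [div_le_iff₀ hb3]
    calc w * D ≤ (a * b) * (a * b) := mul_le_mul hwab hDab hD0 (by positivity)
      _ = a * (a * b ^ 2) := by ring
      _ ≤ a * (b * b ^ 2) := by
          refine mul_le_mul_of_nonneg_left ?_ ha0
          exact mul_le_mul_of_nonneg_right habR.le (by positivity)
      _ = a * b ^ 3 := by ring
  have ha1 : (1 : ℝ) < a := lt_of_lt_of_le hR1 hRa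
  obtain ⟨t, ht⟩ : ∃ t : ℝ, t = Real.log a := ⟨_, rfl⟩
  have hRt : Real.log (w * D / (b : ℝ) ^ 3) ≤ t := by
    rw [ht]
    exact Real.log_le_log (by linarith) hRa
  have hkey : C * x * Real.log (2 * x) ≤ t := by
    have h5 : g * (C * x * Real.log (2 * x)) ≤ g * t := by
      calc g * (C * x * Real.log (2 * x)) = C * (x * g) * Real.log (2 * x) := by ring
        _ = C * b * Real.log (2 * x) := by rw [← hbx]
        _ ≤ g * Real.log (w * D / (b : ℝ) ^ 3) := hor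
        _ ≤ g * t := mul_le_mul_of_nonneg_left hRt hg0.le
    exact le_of_mul_le_mul_left h5 hg0
  have hCx : C * x / 2 ≤ t := by
    have : C * x * (1 / 2) ≤ C * x * Real.log (2 * x) :=
      mul_le_mul_of_nonneg_left hl2 (by positivity)
    linarith
  have hBt : B ≤ t := by
    have : C * 1 ≤ C * x := mul_le_mul_of_nonneg_left hx1 hCp.le
    linarith
  have hxt : x ≤ t := by
    have : 2 * x ≤ C * x := mul_le_mul_of_nonneg_right (by linarith) (by linarith)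
    linarith
  have hta : t ≤ a := by
    rw [ht]
    have := Real.log_le_sub_one_of_pos (by linarith : (0 : ℝ) < a)
    linarith
  have hAnn : (0 : ℝ) ≤ A := Nat.cast_nonneg _
  have ha0nn : (0 : ℝ) ≤ a0 := Nat.cast_nonneg _
  have hTabs := le_abs_self T
  have hTabs' := abs_nonneg T
  have hTt : T ≤ t := by linarith
  have haA : A ≤ a := by
    have : (A : ℝ) ≤ a := by linarith
    exact_mod_cast this
  have haa0 : a0 ≤ a := by
    have : (a0 : ℝ) ≤ a := by linarith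
    exact_mod_cast this
  obtain ⟨L, hL⟩ : ∃ L : ℝ, L = 1 + Real.log a := ⟨_, rfl⟩
  have hL1 : 1 ≤ L := by
    have := Real.log_natCast_nonneg a
    linarith
  have hL0 : 0 < L := by linarith
  by_contra hcon
  have hbP : (b : ℝ) < C3 * a * L ^ c3 := by
    by_contra h
    exact hcon (h3 a b (by rw [← hL]; exact not_lt.1 h) n lam)
  have hwU : (b : ℝ) ^ 2 < C1 * L ^ c1 * w := by
    by_contra h
    exact hcon (h1 a b hab.le n lam (by rw [← hL, ← hw]; exact not_lt.1 h))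
  have hDV : C0 * L ^ (e * c4 + c1) * D < (a : ℝ) ^ 2 := by
    by_contra h
    refine hcon (h2 a b n lam haa0 ?_ (by rw [← hL, ← hD]; exact not_lt.1 h))
    rw [← ht, ← hg]
    have h5 := xcond hx1 (by linarith) hC2 (by linarith) (hT t hTt) hkey
    calc C2 * b * Real.log (2 + t) = g * (C2 * x * Real.log (2 + t)) := by rw [hbx]; ring
      _ ≤ g * t := mul_le_mul_of_nonneg_left h5 hg0.le
  obtain ⟨Λ, hΛ⟩ : ∃ Λ : ℝ, Λ = M * L ^ e := ⟨_, rfl⟩
  have hLe : 1 ≤ L ^ e := one_le_pow₀ hL1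
  have hΛ1 : 1 ≤ Λ := by
    rw [hΛ]
    exact one_le_mul_of_one_le_of_one_le hM1 hLe
  have hmono : ∀ {K : ℝ} {c : ℕ}, 0 ≤ K → K ≤ M → c ≤ e → K * L ^ c ≤ Λ := by
    intro K c hK hKM hce
    rw [hΛ]
    exact mul_le_mul hKM (pow_le_pow_right₀ hL1 hce) (by positivity) (by linarith)
  have hΛc : C4 * Λ ^ c4 = C4 * M ^ c4 * L ^ (e * c4) := by
    rw [hΛ, mul_pow, ← pow_mul]
    ring
  have g1 : C4 * Λ ^ c4 ≤ a := by
    have h := hA a haA
    rw [← hL] at h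
    rw [hΛc]
    exact h
  have g2 : (b : ℝ) ≤ Λ * a := by
    have h5 : C3 * L ^ c3 ≤ Λ := hmono hC3.le (by rw [hM]; linarith) (by rw [he]; omega)
    calc (b : ℝ) ≤ C3 * a * L ^ c3 := hbP.le
      _ = C3 * L ^ c3 * a := by ring
      _ ≤ Λ * a := mul_le_mul_of_nonneg_right h5 ha0
  have g3 : (b : ℝ) ≤ Λ * ((b : ℝ) - a) := by
    have h5 : 1 * L ^ 1 ≤ Λ := hmono zero_le_one hM1 (by rw [he]; omega)
    rw [one_mul, pow_one] at h5
    rw [← hg]
    have h6 : x ≤ Λ := by linarith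
    calc (b : ℝ) = x * g := hbx
      _ ≤ Λ * g := mul_le_mul_of_nonneg_right h6 hg0.le
  have hLp : 1 ≤ L ^ (e * c4 + c1) := one_le_pow₀ hL1
  have g5 : C4 * Λ ^ c4 * D ≤ (a : ℝ) ^ 2 := by
    refine le_trans ?_ hDV.le
    refine mul_le_mul_of_nonneg_right ?_ hD0
    rw [hΛc]
    refine mul_le_mul ?_ (pow_le_pow_right₀ hL1 (by omega)) (by positivity) hC0p.le
    rw [hC0]
    linarith
  have h2D : 2 * D ≤ w := by
    have h5 : 2 * C1 * L ^ c1 * D ≤ C0 * L ^ (e * c4 + c1) * D := by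
      refine mul_le_mul_of_nonneg_right ?_ hD0
      refine mul_le_mul ?_ (pow_le_pow_right₀ hL1 (by omega)) (by positivity) hC0p.le
      rw [hC0]
      have : 0 ≤ C4 * M ^ c4 := by positivity
      linarith
    have h6 : (a : ℝ) ^ 2 ≤ (b : ℝ) ^ 2 := pow_le_pow_left₀ ha0 habR.le 2
    have h7 : C1 * L ^ c1 * (2 * D) ≤ C1 * L ^ c1 * w := by
      calc C1 * L ^ c1 * (2 * D) = 2 * C1 * L ^ c1 * D := by ring
        _ ≤ C0 * L ^ (e * c4 + c1) * D := h5
        _ ≤ (a : ℝ) ^ 2 := hDV.le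
        _ ≤ (b : ℝ) ^ 2 := h6
        _ ≤ C1 * L ^ c1 * w := hwU.le
    exact le_of_mul_le_mul_left h7 (by positivity)
  have hn : 3 ≤ n := by
    by_contra hn
    have h5 := H694.dn_small lam (by omega)
    rw [hD, h5, Nat.cast_zero] at hDp
    exact lt_irrefl _ hDp
  have hdn : w = (ex lam 1 : ℝ) + D := by
    rw [hw, hD]
    exact_mod_cast dn_succ lam 1
  obtain ⟨k, rfl⟩ := Nat.exists_eq_add_of_le' hn
  have e1 : (ex lam 1 : ℝ) = (lam 1 : ℝ) := by
    rw [exlt lam (by omega : 1 < k + 3)]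
    rfl
  have e2 : (dn2 lam : ℝ) = D := by
    rw [H694.dn2_eq, hD]
  rw [e1] at hdn
  have h8 : w ≤ 2 * (lam 1 : ℝ) := by linarith
  have hl0 : (0 : ℝ) < (lam 1 : ℝ) := by linarith
  have g4 : (a : ℝ) ^ 2 ≤ Λ * (lam 1 : ℝ) := by
    have h5 : 2 * C1 * L ^ c1 ≤ Λ := hmono (by linarith) (by rw [hM]; linarith) (by rw [he]; omega)
    calc (a : ℝ) ^ 2 ≤ (b : ℝ) ^ 2 := pow_le_pow_left₀ ha0 habR.le 2
      _ ≤ C1 * L ^ c1 * w := hwU.le
      _ ≤ C1 * L ^ c1 * (2 * (lam 1 : ℝ)) := mul_le_mul_of_nonneg_left h8 (by positivity)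
      _ = 2 * C1 * L ^ c1 * (lam 1 : ℝ) := by ring
      _ ≤ Λ * (lam 1 : ℝ) := mul_le_mul_of_nonneg_right h5 hl0.le
  refine hcon (h4 a b k lam Λ hanti hsum hab hΛ1 g1 g2 g3 g4 (by rw [e2]; exact g5) ?_)
  rw [h2x, ← hg, e2]
  have h9 : Real.log (w * D / (b : ℝ) ^ 3) ≤
      Real.log 2 + Real.log ((lam 1 : ℝ) * D / (b : ℝ) ^ 3) := by
    rw [← Real.log_mul (by norm_num) (by positivity)]
    refine Real.log_le_log (by positivity) ?_
    rw [← mul_div_assoc]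
    refine div_le_div_of_nonneg_right ?_ hb3.le
    have : w * D ≤ 2 * (lam 1 : ℝ) * D := mul_le_mul_of_nonneg_right h8 hD0
    linarith
  have h10 : Real.log 2 ≤ Real.log (2 * x) := Real.log_le_log (by norm_num) (by linarith)
  have h11 : g * Real.log 2 ≤ b * Real.log (2 * x) :=
    mul_le_mul (by linarith) h10 (Real.log_nonneg (by norm_num)) hb0.le
  have h12 : g * Real.log (w * D / (b : ℝ) ^ 3) ≤
      g * Real.log 2 + g * Real.log ((lam 1 : ℝ) * D / (b : ℝ) ^ 3) := by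
    rw [← mul_add]
    exact mul_le_mul_of_nonneg_left h9 hg0.le
  have h13 : (C4 + 1) * (b * Real.log (2 * x)) ≤ C * (b * Real.log (2 * x)) :=
    mul_le_mul_of_nonneg_right (by linarith) (by positivity)
  have h14 : C * b * Real.log (2 * x) = C * (b * Real.log (2 * x)) := by ring
  have h15 : C4 * b * Real.log (2 * x) = C4 * (b * Real.log (2 * x)) := by ring
  have h16 : (C4 + 1) * (b * Real.log (2 * x)) =
      C4 * (b * Real.log (2 * x)) + b * Real.log (2 * x) := by ring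
  rw [h15]
  rw [h14] at hor
  linarith

end Vale.Agent.P181.H382.H398
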